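import Mathlib
import Vale.Agent.P230.Defs
import Vale.Agent.P230.Upper.Main

/-!
P230: every convex body has a lattice covering of density `n^(1+o(1))`.
-/

namespace Vale.Agent.Results.P230.LatticeUpper

open Vale.Agent.P230

/-- `Θ_L(n) ≤ n · exp(40 · log log n · log log log n)` for large `n`, hence `Θ_L(n) ≤ n^(1+δ)`
eventually, for every `δ > 0`. -/
theorem result :
    (∃ N : ℕ, ∀ n : ℕ, N ≤ n → ∀ K : Set (EuclideanSpace ℝ (Fin n)), IsConvexBody K →
      thetaL K ≤ ENNReal.ofReal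
        ((n : ℝ) * Real.exp (40 * Real.log (Real.log n) * Real.log (Real.log (Real.log n))))) ∧
    ∀ δ : ℝ, 0 < δ → ∃ N : ℕ, ∀ n : ℕ, N ≤ n → ∀ K : Set (EuclideanSpace ℝ (Fin n)),
      IsConvexBody K → thetaL K ≤ ENNReal.ofReal ((n : ℝ) ^ (1 + δ)) :=
  ⟨Upper.thetaL_upper, Upper.thetaL_upper_rpow⟩

end Vale.Agent.Results.P230.LatticeUpper
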