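import Mathlib
import Vale.Agent.P230.Defs
import Vale.Agent.P230.Main
import Vale.Agent.P230.Rogers.Density

/-!
P230: the worst-case translative covering density has order exactly `n log n`.
-/

open scoped ENNReal

namespace Vale.Agent.Results.P230.TransOrder

open Vale.Agent.P230

/-- `Θ_T(n)` is of order exactly `n log n`, also `Θ_L(n) ≥ c n log n`; in particular no bound
`θ_T(K) ≤ C n` holds. -/
theorem result :
    (∃ c C : ℝ, 0 < c ∧ ∃ N : ℕ, ∀ n : ℕ, N ≤ n →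
      ENNReal.ofReal (c * ((n : ℝ) * Real.log n)) ≤
        (⨆ (K : Set (EuclideanSpace ℝ (Fin n))) (_ : IsConvexBody K), thetaT K) ∧
      (⨆ (K : Set (EuclideanSpace ℝ (Fin n))) (_ : IsConvexBody K), thetaT K) ≤
        ENNReal.ofReal (C * ((n : ℝ) * Real.log n)) ∧
      ENNReal.ofReal (c * ((n : ℝ) * Real.log n)) ≤
        (⨆ (K : Set (EuclideanSpace ℝ (Fin n))) (_ : IsConvexBody K), thetaL K)) ∧
    ¬ ∃ C : ℝ, ∀ n : ℕ, 0 < n → ∀ K : Set (EuclideanSpace ℝ (Fin n)),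
      IsConvexBody K → thetaT K ≤ ENNReal.ofReal (C * n) := by
  refine ⟨⟨1 / (4 * 10 ^ 8), 9, by norm_num, 10 ^ 20, fun n hn => ?_⟩, ?_⟩
  · have h : Large n := by
      show (10 : ℝ) ^ 20 ≤ n
      exact_mod_cast hn
    obtain ⟨K, hK, hT⟩ := thetaT_lower h
    have h8 : 8 ≤ n := le_trans (by norm_num) hn
    exact ⟨le_iSup₂_of_le K hK hT, iSup₂_le fun L hL => Rogers.thetaT_upper_log h8 hL,
      le_iSup₂_of_le K hK (hT.trans (thetaT_le_thetaL K))⟩
  · rintro ⟨C, hC⟩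
    obtain ⟨n, hn⟩ := exists_nat_gt (Real.exp (4 * 10 ^ 8 * C + 1) + (10 : ℝ) ^ 20)
    have h : Large n := by
      show (10 : ℝ) ^ 20 ≤ n
      linarith [Real.exp_pos (4 * 10 ^ 8 * C + 1)]
    obtain ⟨K, hK, hT⟩ := thetaT_lower h
    have h2 := hT.trans (hC n h.nat_pos K hK)
    have hlog : 4 * 10 ^ 8 * C + 1 ≤ Real.log n := by
      rw [Real.le_log_iff_exp_le h.pos]
      linarith [(pow_nonneg (by norm_num : (0 : ℝ) ≤ 10) 20)]
    have hpos := h.pos
    have hl0 : 0 < 1 / (4 * 10 ^ 8) * ((n : ℝ) * Real.log n) := by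
      have := h.log_ge; positivity
    rw [ENNReal.ofReal_le_ofReal_iff'] at h2
    rcases h2 with h2 | h2
    · nlinarith
    · linarith

end Vale.Agent.Results.P230.TransOrder
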